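import Vale.Agent.P084.MP.Main
import Vale.Agent.P084.MP.Lp
import Vale.Agent.P084.FinMain

/-! The Mazur-Ulam property for asymptotically p-additive spaces. -/

namespace Vale.Agent.Results.P084.AsymptoticLp

open Metric
open Vale.Agent.P084
open scoped ENNReal

universe u w v

/-- The Mazur-Ulam property, against all real normed target spaces. -/
def HasMUP (X : Type u) [NormedAddCommGroup X] [NormedSpace ℝ X] : Prop :=
  ∀ (Y : Type v) [NormedAddCommGroup Y] [NormedSpace ℝ Y]
    (f : sphere (0 : X) 1 → sphere (0 : Y) 1), Isometry f → Function.Surjective f →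
    ∃ T : X ≃ₗᵢ[ℝ] Y, ∀ x : sphere (0 : X) 1, T (x : X) = (f x : Y)

/-- The property for a quotient of a closed subspace. -/
theorem subquotient {X : Type u} [NormedAddCommGroup X] [NormedSpace ℝ X] [CompleteSpace X]
    {q : ℝ} (hq : 1 < q) (hW : MP.WCompact X) (hA : MP.Asymp X q) {M : Submodule ℝ X}
    (hM : IsClosed (M : Set X)) (N : Submodule ℝ M) [IsClosed (N : Set M)]
    {Y : Type v} [NormedAddCommGroup Y] [NormedSpace ℝ Y]
    (f : sphere (0 : M ⧸ N) 1 → sphere (0 : Y) 1) (hf : Isometry f) (hs : Function.Surjective f) :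
    ∃ T : (M ⧸ N) ≃ₗᵢ[ℝ] Y, ∀ x : sphere (0 : M ⧸ N) 1, T (x : M ⧸ N) = (f x : Y) := by
  have : CompleteSpace M := hM.completeSpace_coe
  by_cases hX : FiniteDimensional ℝ (M ⧸ N)
  · exact Fin.tingley f hf hs
  obtain ⟨Q, hQ⟩ := MP.metricSurj_mkQ N
  have hWM : MP.WCompact M := hW.subspace hM
  exact MP.tingley hq (hWM.quot hQ) ((hA.subspace M).quot (one_pos.trans hq) hWM hQ) hX f hf hs

/-- Weakly compact, asymptotically p-additive Banach spaces, and in particular quotients of closed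
subspaces of p-sums of finite-dimensional spaces, have the Mazur-Ulam property. -/
theorem result :
    (∀ (X : Type u) [NormedAddCommGroup X] [NormedSpace ℝ X] [CompleteSpace X] (p : ℝ), 1 < p →
      MP.WCompact X → MP.Asymp X p → HasMUP.{u, v} X ∧
        ∀ (M : Submodule ℝ X), IsClosed (M : Set X) → ∀ (N : Submodule ℝ M)
          [IsClosed (N : Set M)], HasMUP.{u, v} (M ⧸ N)) ∧
    (∀ (ι : Type w) (E : ι → Type u) [∀ i, NormedAddCommGroup (E i)] [∀ i, NormedSpace ℝ (E i)]
      [∀ i, FiniteDimensional ℝ (E i)] (p : ℝ≥0∞) [Fact (1 ≤ p)], 1 < p → p ≠ ⊤ →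
      MP.WCompact (lp E p) ∧ MP.Asymp (lp E p) p.toReal) := by
  refine ⟨fun X _ _ _ p hp hW hA => ⟨fun Y _ _ f hf hs => ?_,
    fun M hM N _ Y _ _ f hf hs => subquotient hp hW hA hM N f hf hs⟩,
    fun ι E _ _ _ p _ hp1 hp => ⟨MP.wCompact_lp hp1 hp,
      MP.asymp_lp hp (one_pos.trans (MP.toReal_one_lt hp1 hp))⟩⟩
  by_cases hX : FiniteDimensional ℝ X
  · exact Fin.tingley f hf hs
  exact MP.tingley hp hW hA hX f hf hs

end Vale.Agent.Results.P084.AsymptoticLp
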