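import Vale.Agent.P084.FinMain

/-! Tingley's problem for all finite-dimensional normed spaces. -/

namespace Vale.Agent.Results.P084.FiniteDimensional

open Metric

universe u v

/-- Every finite-dimensional real normed space has the Mazur-Ulam property: a surjective
isometry of its unit sphere onto the unit sphere of any real normed space extends linearly. -/
theorem result (E : Type u) [NormedAddCommGroup E] [NormedSpace ℝ E] [FiniteDimensional ℝ E]
    (F : Type v) [NormedAddCommGroup F] [NormedSpace ℝ F]
    (f : sphere (0 : E) 1 → sphere (0 : F) 1) (hf : Isometry f) (hs : Function.Surjective f) :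
    ∃ T : E ≃ₗᵢ[ℝ] F, ∀ x : sphere (0 : E) 1, T (x : E) = (f x : F) :=
  Vale.Agent.P084.Fin.tingley f hf hs

end Vale.Agent.Results.P084.FiniteDimensional
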