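import Vale.Agent.P084.LL.Extend
import Vale.Agent.P084.LL.Defs
import Vale.Agent.P084.LL.Density
import Vale.Agent.P084.LL.MSum
import Vale.Agent.P084.LL.UPoint

/-! The Mazur-Ulam property when the functionals of local linearity of the norm separate points,
its density among the equivalent norms of every space, the sum of any space and a line with the
maximum norm, and spaces with an order unit. -/

namespace Vale.Agent.Results.P084.FlatPieces

open Metric Set Filter Topology
open Vale.Agent.P084.LL (MUP)

universe u v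

/-- A real normed space has the Mazur-Ulam property, against arbitrary targets, if the functionals
with which the norm agrees on some nonempty open set separate points; in particular if it is
complete with a countable boundary, or if its norm is locally attained among finitely many
functionals. Every real normed space has arbitrarily close norms with this property. For every
normed space `Z`, the products of `Z` and the line with the maximum norm and with the sum norm
have it. So does every
space with a unit vector at distance two from each unit vector or from its negative (order unit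
spaces). -/
theorem result :
    (∀ (X : Type u) [NormedAddCommGroup X] [NormedSpace ℝ X],
      ((∀ x : X, x ≠ 0 → ∃ (v : X) (φ : StrongDual ℝ X),
          (∀ᶠ w in 𝓝 v, ‖w‖ = φ w) ∧ φ x ≠ 0) ∨
        (CompleteSpace X ∧ ∃ Φ : Set (StrongDual ℝ X), Φ.Countable ∧
          ∀ x, ∃ φ ∈ Φ, φ x = ‖x‖) ∨
        ∀ x : X, x ≠ 0 → ∃ Φ : Set (StrongDual ℝ X), Φ.Finite ∧
          ∀ᶠ w in 𝓝 x, ∃ φ ∈ Φ, φ w = ‖w‖) → MUP.{u, v} X) ∧
    (∀ (X : Type u) [NormedAddCommGroup X] [NormedSpace ℝ X] (ε : ℝ), 0 < ε →
      ∃ (X' : Type u) (_ : NormedAddCommGroup X') (_ : NormedSpace ℝ X') (e : X ≃L[ℝ] X'),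
        (∀ x, ‖x‖ ≤ ‖e x‖ ∧ ‖e x‖ ≤ (1 + ε) * ‖x‖) ∧ MUP.{u, v} X') ∧
    (∀ (Z : Type u) [NormedAddCommGroup Z] [NormedSpace ℝ Z],
      MUP.{u, v} (Z × ℝ) ∧ MUP.{u, v} (WithLp 1 (Z × ℝ))) ∧
    ∀ (X : Type u) [NormedAddCommGroup X] [NormedSpace ℝ X] (e : X), ‖e‖ = 1 →
      (∀ x : X, ‖x‖ = 1 → ‖x + e‖ = 2 ∨ ‖x - e‖ = 2) → MUP.{u, v} X := by
  refine ⟨fun X _ _ hX Y _ _ f hf hs => ?_,
    fun X _ _ ε hε => Vale.Agent.P084.LL.exists_near_mup X ε hε,
    fun Z _ _ => ⟨fun Y _ _ f hf hs => Vale.Agent.P084.LL.tingley_prod_real f hf hs,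
      fun Y _ _ f hf hs =>
        Vale.Agent.P084.LL.tingley_upoint (Vale.Agent.P084.LL.upoint_sumProd Z) f hf hs⟩,
    fun X _ _ e he he' Y _ _ f hf hs => Vale.Agent.P084.LL.tingley_upoint ⟨he, he'⟩ f hf hs⟩
  refine Vale.Agent.P084.LL.tingley_separatingLinear ?_ f hf hs
  rcases hX with h | ⟨hc, Φ, hΦ, h⟩ | h
  · exact h
  · have := hc
    exact (Vale.Agent.P084.LL.denselyLinear_of_countable_boundary hΦ h).separating
  · rcases subsingleton_or_nontrivial X with hX0 | hX0
    · intro x hx
      exact absurd (Subsingleton.elim x 0) hx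
    · exact (Vale.Agent.P084.LL.denselyLinear_of_locally_finite h).separating

end Vale.Agent.Results.P084.FlatPieces
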