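import Vale.Agent.P084.Sm.Main

/-! The Mazur-Ulam property for locally uniformly rotund spaces with uniformly `C²` norms. -/

namespace Vale.Agent.Results.P084.UniformlyC2

open Metric Set

universe u v

/-- A locally uniformly rotund Banach space whose norm is twice differentiable away from zero, with
second derivative bounded and uniformly continuous on the sphere, has the Mazur-Ulam property. -/
theorem result (X : Type u) [NormedAddCommGroup X] [NormedSpace ℝ X] [CompleteSpace X]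
    (hXr : ∀ a : X, ‖a‖ = 1 → ∀ r : ℝ, 0 < r → ∃ ε : ℝ, 0 < ε ∧
      ∀ b : X, ‖b‖ = 1 → r ≤ ‖a - b‖ → ‖a + b‖ ≤ 2 - ε)
    (hX1 : ∀ x : X, x ≠ 0 → DifferentiableAt ℝ (fun z : X => ‖z‖) x)
    (hX2 : ∀ x : X, x ≠ 0 → DifferentiableAt ℝ (fderiv ℝ fun z : X => ‖z‖) x)
    (hXb : ∃ C : ℝ, ∀ x : X, ‖x‖ = 1 → ‖fderiv ℝ (fderiv ℝ fun z : X => ‖z‖) x‖ ≤ C)
    (hXu : UniformContinuousOn (fderiv ℝ (fderiv ℝ fun z : X => ‖z‖)) (sphere (0 : X) 1))
    (Y : Type v) [NormedAddCommGroup Y] [NormedSpace ℝ Y]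
    (f : sphere (0 : X) 1 → sphere (0 : Y) 1) (hf : Isometry f) (hs : Function.Surjective f) :
    ∃ T : X ≃ₗᵢ[ℝ] Y, ∀ x : sphere (0 : X) 1, T (x : X) = (f x : Y) :=
  Vale.Agent.P084.Sm.tingley_smooth hXr ⟨hX1, hX2, hXb, hXu⟩ f hf hs

end Vale.Agent.Results.P084.UniformlyC2
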